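import Mathlib

/-!
# Smooth dependence of ODE solutions on the initial condition

`exists_smooth_local_flow`: a `C^∞` vector field on an open subset of a finite-dimensional space
has a jointly `C^∞` local flow near each point.  Proof (Robbin): inverse function theorem for the
rescaled integral equation on `C([-1,1],E)`.
-/

open Set Filter Topology Metric
open scoped ContDiff

namespace Crest.Agent.Lib.SmoothFlow

universe u

section Nem

variable {K : Type*} [TopologicalSpace K] [CompactSpace K]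

/-- pointwise application of a continuous family of operators. -/
noncomputable def appL (E F : Type*) [NormedAddCommGroup E] [NormedSpace ℝ E]
    [NormedAddCommGroup F] [NormedSpace ℝ F] :
    C(K, E →L[ℝ] F) →L[ℝ] C(K, E) →L[ℝ] C(K, F) :=
  LinearMap.mkContinuous₂
    (LinearMap.mk₂ ℝ
      (fun (A : C(K, E →L[ℝ] F)) (h : C(K, E)) =>
        (⟨fun k => A k (h k), A.continuous.clm_apply h.continuous⟩ : C(K, F)))
      (fun A B h => by ext k; simp)
      (fun c A h => by ext k; simp)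
      (fun A h g => by ext k; simp)
      (fun c A h => by ext k; simp)) 1
    (fun A h => by
      rw [one_mul]
      refine (ContinuousMap.norm_le _ (by positivity)).2 fun k => ?_
      exact ((A k).le_opNorm _).trans
        (mul_le_mul (A.norm_coe_le_norm k) (h.norm_coe_le_norm k) (norm_nonneg _)
          ((norm_nonneg (A k)).trans (A.norm_coe_le_norm k))))

@[simp] theorem appL_apply {E F : Type*} [NormedAddCommGroup E] [NormedSpace ℝ E]
    [NormedAddCommGroup F] [NormedSpace ℝ F] (A : C(K, E →L[ℝ] F)) (h : C(K, E)) (k : K) :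
    appL E F A h k = A k (h k) := rfl

theorem hasFDerivAt_nem {E F : Type*} [NormedAddCommGroup E] [NormedSpace ℝ E]
    [NormedAddCommGroup F] [NormedSpace ℝ F] (f : C(E, F)) (f' : C(E, E →L[ℝ] F))
    (hf : ∀ x, HasFDerivAt f (f' x) x) (γ : C(K, E)) :
    HasFDerivAt (fun γ : C(K, E) => f.comp γ) (appL E F (f'.comp γ)) γ := by
  rw [hasFDerivAt_iff_isLittleO_nhds_zero, Asymptotics.isLittleO_iff]
  intro c hc
  have hcont : ContinuousAt (fun γ : C(K, E) => f'.comp γ) γ :=
    (ContinuousMap.continuous_postcomp f').continuousAt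
  obtain ⟨δ, hδ, hδ'⟩ := (Metric.continuousAt_iff (α := C(K, E)) (β := C(K, E →L[ℝ] F))
    (f := fun γ : C(K, E) => f'.comp γ) (a := γ)).1 hcont c hc
  filter_upwards [Metric.ball_mem_nhds (0 : C(K, E)) hδ] with h hh
  rw [mem_ball_zero_iff] at hh
  refine (ContinuousMap.norm_le _ (by positivity)).2 fun k => ?_
  have hb : ∀ y ∈ ball (γ k) δ, ‖f' y - f' (γ k)‖ ≤ c := by
    intro y hy
    have h1 : dist (γ + ContinuousMap.const K (y - γ k)) γ < δ := by
      rw [dist_eq_norm, add_sub_cancel_left]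
      refine lt_of_le_of_lt ((ContinuousMap.norm_le _ (norm_nonneg (y - γ k))).2 fun _ => le_rfl) ?_
      rwa [← dist_eq_norm]
    have h2 := hδ' h1
    have h3 := ContinuousMap.dist_apply_le_dist
      (f := f'.comp (γ + ContinuousMap.const K (y - γ k))) (g := f'.comp γ) k
    simp only [ContinuousMap.comp_apply, ContinuousMap.add_apply,
      ContinuousMap.const_apply, add_sub_cancel] at h3
    rw [← dist_eq_norm]
    exact h3.trans h2.le
  have hk : ‖h k‖ ≤ ‖h‖ := h.norm_coe_le_norm k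
  have hy : γ k + h k ∈ ball (γ k) δ := by
    rw [mem_ball, dist_eq_norm, add_sub_cancel_left]; exact lt_of_le_of_lt hk hh
  have := (convex_ball (γ k) δ).norm_image_sub_le_of_norm_hasFDerivWithin_le'
    (f := f) (f' := fun y => f' y) (φ := f' (γ k))
    (fun y _ => (hf y).hasFDerivWithinAt) hb (mem_ball_self hδ) hy
  simp only [add_sub_cancel_left] at this
  simp only [ContinuousMap.sub_apply, ContinuousMap.comp_apply, ContinuousMap.add_apply,
    appL_apply]
  exact this.trans (mul_le_mul_of_nonneg_left hk hc.le)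

theorem contDiff_nem_nat {E : Type u} [NormedAddCommGroup E] [NormedSpace ℝ E] (n : ℕ) :
    ∀ (F : Type u) [NormedAddCommGroup F] [NormedSpace ℝ F] (f : C(E, F)),
      ContDiff ℝ n f → ContDiff ℝ n (fun γ : C(K, E) => f.comp γ) := by
  induction n with
  | zero =>
    intro F _ _ f _
    simpa using ContinuousMap.continuous_postcomp f
  | succ n ih =>
    intro F _ _ f hf
    have hf2 : ContDiff ℝ ((n : WithTop ℕ∞) + 1) f := by exact_mod_cast hf
    obtain ⟨f', hf'1, hf'2⟩ := contDiff_succ_iff_hasFDerivAt.1 hf2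
    have : ContDiff ℝ ((n : WithTop ℕ∞) + 1) (fun γ : C(K, E) => f.comp γ) := by
      refine contDiff_succ_iff_hasFDerivAt.2
        ⟨fun γ => appL E F ((⟨f', hf'1.continuous⟩ : C(E, E →L[ℝ] F)).comp γ), ?_, fun γ => ?_⟩
      · exact (appL (K := K) E F).contDiff.comp (ih _ ⟨f', hf'1.continuous⟩ hf'1)
      · exact hasFDerivAt_nem f ⟨f', hf'1.continuous⟩ hf'2 γ
    exact_mod_cast this

/-- the superposition (Nemytskii) operator of a smooth map is smooth. -/
theorem contDiff_nem {E F : Type u} [NormedAddCommGroup E] [NormedSpace ℝ E]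
    [NormedAddCommGroup F] [NormedSpace ℝ F] (f : C(E, F)) (hf : ContDiff ℝ ∞ f) :
    ContDiff ℝ ∞ (fun γ : C(K, E) => f.comp γ) :=
  contDiff_infty.2 fun n => contDiff_nem_nat n F f (contDiff_infty.1 hf n)

end Nem

section Int

variable {E : Type*} [NormedAddCommGroup E] [NormedSpace ℝ E] [CompleteSpace E]

theorem h11 : (-1 : ℝ) ≤ 1 := by norm_num

/-- extension of a path on `[-1,1]` to the line. -/
noncomputable def ext (g : C(Icc (-1 : ℝ) 1, E)) : ℝ → E := IccExtend h11 g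

omit [NormedSpace ℝ E] [CompleteSpace E] in
theorem continuous_ext (g : C(Icc (-1 : ℝ) 1, E)) : Continuous (ext g) :=
  g.continuous.Icc_extend'

omit [NormedSpace ℝ E] [CompleteSpace E] in
theorem ext_of_mem (g : C(Icc (-1 : ℝ) 1, E)) {s : ℝ} (hs : s ∈ Icc (-1 : ℝ) 1) :
    ext g s = g ⟨s, hs⟩ := IccExtend_of_mem h11 g hs

omit [NormedSpace ℝ E] [CompleteSpace E] in
theorem norm_ext_le (g : C(Icc (-1 : ℝ) 1, E)) (s : ℝ) : ‖ext g s‖ ≤ ‖g‖ :=
  g.norm_coe_le_norm _

theorem hasDerivAt_prim (g : C(Icc (-1 : ℝ) 1, E)) (s : ℝ) :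
    HasDerivAt (fun s => ∫ u in (0 : ℝ)..s, ext g u) (ext g s) s :=
  ((continuous_ext g).integral_hasStrictDerivAt 0 s).hasDerivAt

/-- the primitive vanishing at `0`, as an operator on `C([-1,1],E)`. -/
noncomputable def prim : C(Icc (-1 : ℝ) 1, E) →L[ℝ] C(Icc (-1 : ℝ) 1, E) :=
  LinearMap.mkContinuous
    { toFun := fun g => ⟨fun s => ∫ u in (0 : ℝ)..(s : ℝ), ext g u,
        (continuous_iff_continuousAt.2 fun s => (hasDerivAt_prim g s).continuousAt).comp
          continuous_subtype_val⟩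
      map_add' := fun g h => by
        ext s
        simp only [ContinuousMap.coe_mk, ContinuousMap.add_apply]
        rw [← intervalIntegral.integral_add ((continuous_ext g).intervalIntegrable _ _)
          ((continuous_ext h).intervalIntegrable _ _)]
        rfl
      map_smul' := fun c g => by
        ext s
        simp only [ContinuousMap.coe_mk, ContinuousMap.smul_apply, RingHom.id_apply]
        rw [← intervalIntegral.integral_smul]
        rfl } 1
    (fun g => by
      rw [one_mul]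
      refine (ContinuousMap.norm_le _ (norm_nonneg g)).2 fun s => ?_
      have := intervalIntegral.norm_integral_le_of_norm_le_const (a := 0) (b := (s : ℝ))
        (f := ext g) (C := ‖g‖) (fun u _ => norm_ext_le g u)
      refine this.trans ?_
      have hs : |(s : ℝ) - 0| ≤ 1 := by
        rw [sub_zero]; exact abs_le.2 s.2
      exact mul_le_of_le_one_right (norm_nonneg _) hs)

theorem prim_apply (g : C(Icc (-1 : ℝ) 1, E)) (s : Icc (-1 : ℝ) 1) :
    prim g s = ∫ u in (0 : ℝ)..(s : ℝ), ext g u := rfl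

end Int

section Main

variable {E : Type u} [NormedAddCommGroup E] [NormedSpace ℝ E] [CompleteSpace E]

/-- A solution of the rescaled integral equation gives a solution of the rescaled ODE. -/
theorem exists_sol_of_fixed (f : C(E, E)) (T : ℝ) (x : E) (γ : C(Icc (-1 : ℝ) 1, E))
    (h : γ - T • prim (f.comp γ) = ContinuousMap.const _ x) :
    ∃ c : ℝ → E, Continuous c ∧ c 0 = x ∧ c 1 = γ ⟨1, by norm_num⟩ ∧
      ∀ s ∈ Icc (-1 : ℝ) 1, HasDerivAt c (T • f (c s)) s := by
  have hc : ∀ s (hs : s ∈ Icc (-1 : ℝ) 1),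
      x + T • ∫ u in (0 : ℝ)..s, ext (f.comp γ) u = γ ⟨s, hs⟩ := by
    intro s hs
    have := congrArg (fun g : C(Icc (-1 : ℝ) 1, E) => g ⟨s, hs⟩) h
    simp only [ContinuousMap.sub_apply, ContinuousMap.smul_apply, prim_apply,
      ContinuousMap.const_apply] at this
    rw [← this]; abel
  have hd : ∀ s, HasDerivAt (fun s => x + T • ∫ u in (0 : ℝ)..s, ext (f.comp γ) u)
      (T • ext (f.comp γ) s) s := fun s =>
    ((hasDerivAt_prim (f.comp γ) s).const_smul T).const_add x
  refine ⟨fun s => x + T • ∫ u in (0 : ℝ)..s, ext (f.comp γ) u,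
    continuous_iff_continuousAt.2 fun s => (hd s).continuousAt, by simp, hc _ _, fun s hs => ?_⟩
  have := hd s
  rw [ext_of_mem _ hs, ContinuousMap.comp_apply, ← hc s hs] at this
  exact this

/-- smooth family of solutions of the rescaled integral equation. -/
theorem exists_smooth_fixed (f : C(E, E)) (hf : ContDiff ℝ ∞ f) (x0 : E) :
    ∃ V : Set (ℝ × E), IsOpen V ∧ (0, x0) ∈ V ∧ ∃ Γ : ℝ × E → C(Icc (-1 : ℝ) 1, E),
      ContDiffOn ℝ ∞ Γ V ∧
      ∀ p ∈ V, Γ p - p.1 • prim (f.comp (Γ p)) = ContinuousMap.const _ p.2 := by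
  set X := C(Icc (-1 : ℝ) 1, E)
  let P : X → X := fun γ => prim (f.comp γ)
  have hP : ContDiff ℝ ∞ P := (prim (E := E)).contDiff.comp (contDiff_nem f hf)
  let G : ℝ × X → ℝ × X := fun p => (p.1, p.2 - p.1 • P p.2)
  have hG : ContDiff ℝ ∞ G :=
    contDiff_fst.prodMk (contDiff_snd.sub (contDiff_fst.smul (hP.comp contDiff_snd)))
  let cst : E →L[ℝ] X := ContinuousLinearMap.const ℝ _
  let p0 : ℝ × X := (0, cst x0)
  let e : (ℝ × X) ≃L[ℝ] (ℝ × X) :=
    (ContinuousLinearEquiv.refl ℝ ℝ).skewProd (ContinuousLinearEquiv.refl ℝ X)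
      (-(ContinuousLinearMap.toSpanSingleton ℝ (P p0.2)))
  have hG' : HasFDerivAt G (e : ℝ × X →L[ℝ] ℝ × X) p0 := by
    have h1 : HasFDerivAt (fun p : ℝ × X => P p.2)
        ((fderiv ℝ P p0.2).comp (ContinuousLinearMap.snd ℝ ℝ X)) p0 :=
      ((hP.differentiable (by simp)) p0.2).hasFDerivAt.comp p0 hasFDerivAt_snd
    have hf1 : HasFDerivAt (fun p : ℝ × X => p.1) (ContinuousLinearMap.fst ℝ ℝ X) p0 :=
      hasFDerivAt_fst
    have hs1 : HasFDerivAt (fun p : ℝ × X => p.2) (ContinuousLinearMap.snd ℝ ℝ X) p0 :=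
      hasFDerivAt_snd
    have h3 : HasFDerivAt (fun p : ℝ × X => p.1 • P p.2) _ p0 := HasFDerivAt.smul hf1 h1
    have h2 := hf1.prodMk (hs1.sub h3)
    refine HasFDerivAt.congr_fderiv h2 ?_
    refine ContinuousLinearMap.ext fun q => ?_
    simp [e, p0, sub_eq_add_neg]
  let Φ := hG.contDiffAt.toOpenPartialHomeomorph G hG' (by simp)
  have hΦ : (Φ : ℝ × X → ℝ × X) = G := rfl
  have hp0 : p0 ∈ Φ.source := hG.contDiffAt.mem_toOpenPartialHomeomorph_source hG' (by simp)
  have hGp0 : G p0 = p0 := by simp [G, p0]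
  let W : Set (ℝ × X) := fderiv ℝ G ⁻¹' range ((↑) : ((ℝ × X) ≃L[ℝ] (ℝ × X)) → _)
  have hW : IsOpen W :=
    ContinuousLinearEquiv.isOpen.preimage (hG.continuous_fderiv (by simp))
  have hp0W : p0 ∈ W := ⟨e, hG'.fderiv.symm⟩
  let V0 : Set (ℝ × X) := Φ.target ∩ Φ.symm ⁻¹' W
  have hV0 : IsOpen V0 := Φ.isOpen_inter_preimage_symm hW
  have hp0V : p0 ∈ V0 := by
    have h1 := Φ.map_source hp0
    have h2 := Φ.left_inv hp0
    rw [hΦ, hGp0] at h1 h2
    exact ⟨h1, by rw [mem_preimage, h2]; exact hp0W⟩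
  have hsm : ∀ q ∈ V0, ContDiffAt ℝ ∞ Φ.symm q := by
    rintro q ⟨hq, e', he'⟩
    refine Φ.contDiffAt_symm (f₀' := e') hq ?_ hG.contDiffAt
    rw [he', hΦ]
    exact ((hG.differentiable (by simp)) _).hasFDerivAt
  let L : ℝ × E →L[ℝ] ℝ × X := (ContinuousLinearMap.id ℝ ℝ).prodMap cst
  refine ⟨L ⁻¹' V0, hV0.preimage L.continuous, hp0V, fun p => (Φ.symm (L p)).2, ?_, ?_⟩
  · intro p hp
    exact (contDiffAt_snd.comp p ((hsm _ hp).comp p L.contDiff.contDiffAt)).contDiffWithinAt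
  · intro p hp
    have h1 := Φ.right_inv hp.1
    rw [hΦ] at h1
    have h2 : (Φ.symm (L p)).1 = p.1 := congrArg Prod.fst h1
    have h3 : (Φ.symm (L p)).2 - (Φ.symm (L p)).1 • P (Φ.symm (L p)).2 = cst p.2 :=
      congrArg Prod.snd h1
    rw [h2] at h3
    exact h3

/-- smooth local flow of a globally smooth, globally Lipschitz vector field. -/
theorem exists_smooth_local_flow_of_lipschitz {f : E → E} (hf : ContDiff ℝ ∞ f) {K : NNReal}
    (hK : LipschitzWith K f) (x0 : E) :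
    ∃ ε > (0 : ℝ), ∃ r > (0 : ℝ), ∃ φ : ℝ × E → E,
      ContDiffOn ℝ ∞ φ (Ioo (-ε) ε ×ˢ ball x0 r) ∧
      ∀ x ∈ ball x0 r, φ (0, x) = x ∧
        ∀ t ∈ Ioo (-ε) ε, HasDerivAt (fun s => φ (s, x)) (f (φ (t, x))) t := by
  obtain ⟨V, hV, h0, Γ, hΓ, hfix⟩ := exists_smooth_fixed ⟨f, hf.continuous⟩ hf x0
  obtain ⟨δ, hδ, hball⟩ := Metric.isOpen_iff.1 hV _ h0
  have hmem : ∀ t x, |t| ≤ δ / 2 → x ∈ ball x0 δ → (t, x) ∈ V := by
    intro t x ht hx
    apply hball
    rw [← ball_prod_same]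
    refine ⟨?_, hx⟩
    rw [mem_ball_zero_iff, Real.norm_eq_abs]; linarith
  let ev : C(Icc (-1 : ℝ) 1, E) →L[ℝ] E := ContinuousMap.evalCLM ℝ ⟨1, by norm_num⟩
  refine ⟨δ / 2, by linarith, δ, hδ, fun p => ev (Γ p), ?_, fun x hx => ?_⟩
  · refine ev.contDiff.comp_contDiffOn (hΓ.mono ?_)
    rintro ⟨t, x⟩ ⟨ht, hx⟩
    exact hmem t x (abs_le.2 ⟨ht.1.le, ht.2.le⟩) hx
  set T := δ / 2 with hT
  have hT0 : 0 < T := by rw [hT]; linarith
  obtain ⟨c, hc, hc0, -, hcd⟩ := exists_sol_of_fixed ⟨f, hf.continuous⟩ T x _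
    (hfix (T, x) (hmem T x (by rw [abs_of_pos hT0]) hx))
  have key : ∀ σ ∈ Icc (-1 : ℝ) 1, ev (Γ (σ * T, x)) = c σ := by
    intro σ hσ
    have hσ' : |σ| ≤ 1 := abs_le.2 hσ
    have hm : (σ * T, x) ∈ V := hmem _ _ (by
      rw [abs_mul, abs_of_pos hT0]; exact mul_le_of_le_one_left hT0.le hσ') hx
    obtain ⟨d, hd, hd0, hd1, hdd⟩ := exists_sol_of_fixed ⟨f, hf.continuous⟩ (σ * T) x _
      (hfix _ hm)
    have hL : LipschitzWith (‖σ * T‖₊ * K) (fun y => (σ * T) • f y) :=
      (lipschitzWith_smul (σ * T)).comp hK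
    have huniq := ODE_solution_unique_of_mem_Icc (v := fun _ y => (σ * T) • f y)
      (s := fun _ => univ) (f := d) (g := fun s => c (σ * s)) (a := -1) (b := 1) (t₀ := 0)
      (fun _ _ => hL.lipschitzOnWith) (by norm_num) hd.continuousOn
      (fun s hs => hdd s (Ioo_subset_Icc_self hs)) (fun _ _ => mem_univ _)
      (hc.comp (continuous_const.mul continuous_id)).continuousOn
      (fun s hs => by
        have hs' : |s| ≤ 1 := abs_le.2 (Ioo_subset_Icc_self hs)
        have h1 : σ * s ∈ Icc (-1 : ℝ) 1 := abs_le.1 (by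
          rw [abs_mul]; exact mul_le_one₀ hσ' (abs_nonneg _) hs')
        have h2 := (hcd _ h1).scomp s ((hasDerivAt_id s).const_mul σ)
        simp only [mul_one, smul_smul] at h2
        exact h2)
      (fun _ _ => mem_univ _) (by simp [hd0, hc0])
    have := huniq (show (1 : ℝ) ∈ Icc (-1 : ℝ) 1 by norm_num)
    simp only [mul_one] at this
    rw [← this, hd1]; rfl
  refine ⟨?_, fun t ht => ?_⟩
  · have := key 0 (by norm_num)
    rw [zero_mul, hc0] at this
    exact this
  have key2 : ∀ s ∈ Ioo (-T) T, s / T ∈ Icc (-1 : ℝ) 1 := by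
    intro s hs
    constructor
    · rw [le_div_iff₀ hT0]; linarith [hs.1]
    · rw [div_le_one hT0]; exact hs.2.le
  have key3 : ∀ s ∈ Ioo (-T) T, ev (Γ (s, x)) = c (s / T) := by
    intro s hs
    have := key _ (key2 s hs)
    rwa [div_mul_cancel₀ _ hT0.ne'] at this
  have h2 := (hcd _ (key2 t ht)).scomp t ((hasDerivAt_id t).div_const T)
  have h3 : (1 / T) • T • f (c (t / T)) = f (c (t / T)) := by
    rw [smul_smul, one_div_mul_cancel hT0.ne', one_smul]
  have h4 : HasDerivAt (fun s => c (s / T)) (f (c (t / T))) t := by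
    rw [← h3]; exact h2
  show HasDerivAt (fun s => ev (Γ (s, x))) (f (ev (Γ (t, x)))) t
  rw [key3 t ht]
  refine h4.congr_of_eventuallyEq ?_
  filter_upwards [isOpen_Ioo.mem_nhds ht] with s hs using key3 s hs

end Main

/-- **Smooth local flow.** A smooth vector field on an open set of a finite-dimensional space has
a jointly smooth local flow near every point. -/
theorem exists_smooth_local_flow {E : Type*} [NormedAddCommGroup E] [NormedSpace ℝ E]
    [FiniteDimensional ℝ E] {f : E → E} {U : Set E} (hU : IsOpen U) (hf : ContDiffOn ℝ ∞ f U)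
    {x0 : E} (hx : x0 ∈ U) :
    ∃ ε > (0 : ℝ), ∃ r > (0 : ℝ), ∃ φ : ℝ × E → E,
      ContDiffOn ℝ ∞ φ (Ioo (-ε) ε ×ˢ ball x0 r) ∧
      ∀ x ∈ ball x0 r, φ (0, x) = x ∧
        ∀ t ∈ Ioo (-ε) ε, φ (t, x) ∈ U ∧ HasDerivAt (fun s => φ (s, x)) (f (φ (t, x))) t := by
  have : CompleteSpace E := FiniteDimensional.complete ℝ E
  have : ProperSpace E := FiniteDimensional.proper ℝ E
  obtain ⟨ρ, hρ, hρU⟩ := Metric.isOpen_iff.1 hU _ hx
  let b : ContDiffBump x0 := ⟨ρ / 4, ρ / 2, by linarith, by linarith⟩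
  let g : E → E := fun y => b y • f y
  have hts : tsupport b = closedBall x0 (ρ / 2) := b.tsupport_eq
  have hg : ContDiff ℝ ∞ g := by
    rw [contDiff_iff_contDiffAt]
    intro y
    by_cases hy : y ∈ U
    · exact b.contDiff.contDiffAt.smul (hf.contDiffAt (hU.mem_nhds hy))
    · have hy' : y ∉ tsupport b := by
        rw [hts]
        exact fun h => hy (hρU (closedBall_subset_ball (by linarith) h))
      have : g =ᶠ[𝓝 y] fun _ => 0 := by
        filter_upwards [notMem_tsupport_iff_eventuallyEq.1 hy'] with z hz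
        simp only [g, hz, Pi.zero_apply, zero_smul]
      exact contDiffAt_const.congr_of_eventuallyEq this
  have hgc : HasCompactSupport g := b.hasCompactSupport.smul_right
  obtain ⟨K, hK⟩ := ContDiff.lipschitzWith_of_hasCompactSupport hgc hg (by simp)
  obtain ⟨ε, hε, r, hr, φ, hφ, hφ'⟩ := exists_smooth_local_flow_of_lipschitz hg hK x0
  have ho : IsOpen (Ioo (-ε) ε ×ˢ ball x0 r) := isOpen_Ioo.prod isOpen_ball
  have h0 : ((0 : ℝ), x0) ∈ Ioo (-ε) ε ×ˢ ball x0 r := ⟨⟨by linarith, hε⟩, mem_ball_self hr⟩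
  have hc : ContinuousAt φ (0, x0) := hφ.continuousOn.continuousAt (ho.mem_nhds h0)
  obtain ⟨δ, hδ, hδ'⟩ := Metric.continuousAt_iff.1 hc (ρ / 4) (by linarith)
  rw [(hφ' x0 (mem_ball_self hr)).1] at hδ'
  have hs1 : Ioo (-(min ε δ)) (min ε δ) ⊆ Ioo (-ε) ε :=
    Ioo_subset_Ioo (neg_le_neg (min_le_left _ _)) (min_le_left _ _)
  have hs2 : ball x0 (min r δ) ⊆ ball x0 r := ball_subset_ball (min_le_left _ _)
  refine ⟨min ε δ, lt_min hε hδ, min r δ, lt_min hr hδ, φ, hφ.mono (prod_mono hs1 hs2),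
    fun x hx' => ⟨(hφ' x (hs2 hx')).1, fun t ht => ?_⟩⟩
  have hb : φ (t, x) ∈ ball x0 (ρ / 4) := by
    apply hδ'
    rw [← mem_ball, ← ball_prod_same]
    refine ⟨?_, ball_subset_ball (min_le_right _ _) hx'⟩
    rw [mem_ball_zero_iff, Real.norm_eq_abs, abs_lt]
    exact ⟨lt_of_le_of_lt (neg_le_neg (min_le_right _ _)) ht.1,
      lt_of_lt_of_le ht.2 (min_le_right _ _)⟩
  refine ⟨hρU (ball_subset_ball (by linarith) hb), ?_⟩
  have h1 := (hφ' x (hs2 hx')).2 t (hs1 ht)
  have h2 : g (φ (t, x)) = f (φ (t, x)) := by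
    simp only [g]
    rw [b.one_of_mem_closedBall (ball_subset_closedBall hb), one_smul]
  rwa [h2] at h1

end Crest.Agent.Lib.SmoothFlow
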